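import Vale.Agent.P271.Ver.Main
import Vale.Agent.P271.Sch.Hub

/-!
# P271 / Ver / Cone : good Veronese indices of a graded cone
-/

namespace Vale.Agent.P271.Ver

open Vale.Agent.P271.Sch

/-- Good Veronese indices of a graded cone with a point different from the vertex. -/
theorem exists_verOK_cone {n : ℕ} (C : GCone n) {φ : C.Pt} (hφ : GCone.NV φ) :
    ∃ m₁, 0 < m₁ ∧ ∀ m, m₁ ∣ m → 0 < m → VerOK C.A m := by
  obtain ⟨k₀, hk₀, s, hs, hs0⟩ := hφ
  have := C.finiteType
  refine exists_verOK C.A (fun r hr => ?_) hk₀ ?_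
  · obtain ⟨c, hc⟩ := C.zero r hr
    exact ⟨c, hc.symm⟩
  · intro hbot
    rw [hbot, Submodule.mem_bot] at hs
    exact hs0 (by rw [hs, map_zero])

/-- Some element of `R_m` does not vanish at a given point different from the vertex. -/
theorem exists_ne_zero_of_NV {n : ℕ} {C : GCone n} {m : ℕ} (h : VerOK C.A m) {φ : C.Pt}
    (hφ : GCone.NV φ) : ∃ s ∈ C.A m, φ s ≠ 0 := by
  have : NeZero m := ⟨h.pos.ne'⟩
  by_contra hcon
  push Not at hcon
  obtain ⟨k₀, hk₀, s, hs, hs0⟩ := hφ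
  have hker : (RingHom.ker φ).IsPrime := RingHom.ker_isPrime _
  apply hs0
  exact mem_of_part_subset (𝒜 := C.A) (P := RingHom.ker φ) h.pow (fun r hr => hcon r hr) hk₀ hs

end Vale.Agent.P271.Ver
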