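import Mathlib

/-!
# P271 / Ver / Gen : a Veronese subring of a finitely generated graded algebra is generated in
degree one

`R` is graded by `ℕ` and generated over `k` by homogeneous elements `x i` of positive degrees `w i`.
With `ω = ∏ w i` and `N` the number of generators, `R_n ⊆ R_ω R_{n-ω}` for `n ≥ N ω`, hence
`R_{m t} = (R_m)^t` for every positive multiple `m` of `N ω`.
-/

namespace Vale.Agent.P271.Ver

open DirectSum

variable {k R : Type*} [Field k] [CommRing R] [Algebra k R]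
  (𝒜 : ℕ → Submodule k R) [GradedAlgebra 𝒜]
  {ι : Type*} [Fintype ι] {x : ι → R} {w : ι → ℕ}

/-- The monomials in the generators. -/
def mon (x : ι → R) (a : ι → ℕ) : R := ∏ i, x i ^ a i

/-- The weight of an exponent. -/
def wt (w : ι → ℕ) (a : ι → ℕ) : ℕ := ∑ i, a i * w i

theorem mon_mem (hx : ∀ i, x i ∈ 𝒜 (w i)) (a : ι → ℕ) : mon x a ∈ 𝒜 (wt w a) := by
  classical
  unfold mon wt
  have h : ∀ s : Finset ι, ∏ i ∈ s, x i ^ a i ∈ 𝒜 (∑ i ∈ s, a i * w i) := by
    intro s
    induction s using Finset.induction_on with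
    | empty => simpa using SetLike.GradedOne.one_mem (A := 𝒜)
    | insert i s his ih =>
      rw [Finset.prod_insert his, Finset.sum_insert his]
      have h1 := SetLike.pow_mem_graded (a i) (hx i)
      rw [smul_eq_mul] at h1
      exact SetLike.mul_mem_graded h1 ih
  exact h Finset.univ

/-- `R_n` is spanned by the monomials of weight `n`. -/
theorem mem_span_mon (hx : ∀ i, x i ∈ 𝒜 (w i)) (hgen : Algebra.adjoin k (Set.range x) = ⊤)
    {n : ℕ} {r : R} (hr : r ∈ 𝒜 n) :
    r ∈ Submodule.span k {y | ∃ a : ι → ℕ, wt w a = n ∧ mon x a = y} := by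
  classical
  have hr' : r ∈ Algebra.adjoin k (Set.range x) := by rw [hgen]; trivial
  rw [Algebra.adjoin_range_eq_range_aeval] at hr'
  obtain ⟨Q, rfl⟩ := hr'
  have hsame : GradedAlgebra.proj 𝒜 n (MvPolynomial.aeval x Q) = MvPolynomial.aeval x Q := by
    rw [GradedAlgebra.proj_apply]
    exact decompose_of_mem_same 𝒜 hr
  change MvPolynomial.aeval x Q ∈ _
  rw [← hsame]
  have hQ : MvPolynomial.aeval x Q = ∑ a ∈ Q.support, Q.coeff a • mon x a := by
    conv_lhs => rw [Q.as_sum, map_sum]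
    refine Finset.sum_congr rfl (fun a _ => ?_)
    rw [MvPolynomial.aeval_monomial, Algebra.smul_def]
    congr 1
    rw [Finsupp.prod_fintype _ _ (fun i => pow_zero _)]
    rfl
  rw [hQ, map_sum]
  refine Submodule.sum_mem _ (fun a _ => ?_)
  rw [map_smul]
  refine Submodule.smul_mem _ _ ?_
  rw [GradedAlgebra.proj_apply]
  by_cases ha : wt w a = n
  · have h1 := mon_mem 𝒜 hx a
    rw [ha] at h1
    rw [decompose_of_mem_same 𝒜 h1]
    exact Submodule.subset_span ⟨a, ha, rfl⟩
  · rw [decompose_of_mem_ne 𝒜 (mon_mem 𝒜 hx a) ha]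
    exact Submodule.zero_mem _

/-- The homogeneous parts are finite dimensional. -/
theorem finite_part (hx : ∀ i, x i ∈ 𝒜 (w i)) (hw : ∀ i, 0 < w i)
    (hgen : Algebra.adjoin k (Set.range x) = ⊤) (n : ℕ) : Module.Finite k (𝒜 n) := by
  classical
  have hfin : {y | ∃ a : ι → ℕ, wt w a = n ∧ mon x a = y}.Finite := by
    have h1 : {a : ι → ℕ | wt w a = n}.Finite := by
      refine (Set.Finite.pi' (t := fun _ : ι => Set.Iic n) (fun _ => Set.finite_Iic n)).subset ?_
      intro a ha i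
      rw [Set.mem_Iic]
      have h2 : a i * w i ≤ wt w a :=
        Finset.single_le_sum (f := fun i => a i * w i) (fun _ _ => Nat.zero_le _)
          (Finset.mem_univ i)
      have ha' : wt w a = n := ha
      have h3 := hw i
      nlinarith
    refine (h1.image (mon x)).subset ?_
    rintro y ⟨a, ha, rfl⟩
    exact ⟨a, ha, rfl⟩
  have hle : 𝒜 n ≤ Submodule.span k {y | ∃ a : ι → ℕ, wt w a = n ∧ mon x a = y} :=
    fun r hr => mem_span_mon 𝒜 hx hgen hr
  have : Module.Finite k (Submodule.span k {y | ∃ a : ι → ℕ, wt w a = n ∧ mon x a = y}) :=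
    Module.Finite.span_of_finite k hfin
  exact Submodule.finiteDimensional_of_le hle

/-- `R_0 = k`. -/
theorem zero_part (hx : ∀ i, x i ∈ 𝒜 (w i)) (hw : ∀ i, 0 < w i)
    (hgen : Algebra.adjoin k (Set.range x) = ⊤) {r : R} (hr : r ∈ 𝒜 0) :
    ∃ c : k, r = algebraMap k R c := by
  classical
  have h1 := mem_span_mon 𝒜 hx hgen hr
  have h2 : {y | ∃ a : ι → ℕ, wt w a = 0 ∧ mon x a = y} ⊆ {(1 : R)} := by
    rintro y ⟨a, ha, rfl⟩
    rw [Set.mem_singleton_iff]
    unfold mon
    apply Finset.prod_eq_one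
    intro i _
    have h3 : a i * w i = 0 := by
      unfold wt at ha
      rw [Finset.sum_eq_zero_iff] at ha
      exact ha i (Finset.mem_univ i)
    have h4 : a i = 0 := by
      rcases Nat.mul_eq_zero.mp h3 with h | h
      · exact h
      · exact absurd h (hw i).ne'
    rw [h4, pow_zero]
  have h3 := Submodule.span_mono h2 h1
  rw [Submodule.mem_span_singleton] at h3
  obtain ⟨c, hc⟩ := h3
  exact ⟨c, by rw [← hc, Algebra.smul_def, mul_one]⟩

/-- `R_n ⊆ R_ω R_{n-ω}` for `n ≥ N ω`, where `ω` is a common multiple of the degrees. -/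
theorem part_le_mul (hx : ∀ i, x i ∈ 𝒜 (w i)) (hw : ∀ i, 0 < w i)
    (hgen : Algebra.adjoin k (Set.range x) = ⊤) {ω : ℕ} (hω : ∀ i, w i ∣ ω) (hω0 : 0 < ω)
    {n : ℕ} (hn : Fintype.card ι * ω ≤ n) (hn0 : ω ≤ n) : 𝒜 n ≤ 𝒜 ω * 𝒜 (n - ω) := by
  classical
  intro r hr
  refine Submodule.span_le.mpr ?_ (mem_span_mon 𝒜 hx hgen hr)
  rintro y ⟨a, ha, rfl⟩
  -- some exponent is large
  obtain ⟨i, hi⟩ : ∃ i, ω ≤ a i * w i := by
    by_contra hcon
    push Not at hcon
    have hne : (Finset.univ : Finset ι).Nonempty := by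
      by_contra hemp
      rw [Finset.not_nonempty_iff_eq_empty] at hemp
      have : wt w a = 0 := by unfold wt; rw [hemp, Finset.sum_empty]
      omega
    have h1 : wt w a < ∑ _i : ι, ω := by
      unfold wt
      exact Finset.sum_lt_sum_of_nonempty hne (fun i _ => hcon i)
    rw [Finset.sum_const, Finset.card_univ, smul_eq_mul] at h1
    omega
  obtain ⟨q, hq⟩ := hω i
  have hqa : q ≤ a i := by
    by_contra hcon
    push Not at hcon
    have h1 := hw i
    have h2 : a i * w i < w i * q := by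
      rw [mul_comm (w i) q]
      exact Nat.mul_lt_mul_of_pos_right hcon h1
    omega
  let b : ι → ℕ := Function.update a i (a i - q)
  have hb : mon x a = x i ^ q * mon x b := by
    unfold mon
    rw [← Finset.mul_prod_erase _ _ (Finset.mem_univ i),
      ← Finset.mul_prod_erase Finset.univ (fun j => x j ^ b j) (Finset.mem_univ i), ← mul_assoc]
    congr 1
    · simp only [b, Function.update_self]
      rw [← pow_add]
      congr 1
      omega
    · refine Finset.prod_congr rfl (fun j hj => ?_)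
      rw [Finset.mem_erase] at hj
      simp only [b]
      rw [Function.update_of_ne hj.1]
  have hwb : wt w b = n - ω := by
    have h1 : wt w a = q * w i + wt w b := by
      unfold wt
      rw [← Finset.add_sum_erase _ _ (Finset.mem_univ i),
        ← Finset.add_sum_erase Finset.univ (fun j => b j * w j) (Finset.mem_univ i), ← add_assoc]
      congr 1
      · simp only [b, Function.update_self]
        rw [← add_mul]
        congr 1
        omega
      · refine Finset.sum_congr rfl (fun j hj => ?_)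
        rw [Finset.mem_erase] at hj
        simp only [b]
        rw [Function.update_of_ne hj.1]
    have h2 : q * w i = ω := by rw [hq, mul_comm]
    omega
  rw [hb]
  refine Submodule.mul_mem_mul ?_ ?_
  · have h1 := SetLike.pow_mem_graded q (hx i)
    rw [smul_eq_mul, mul_comm, ← hq] at h1
    exact h1
  · have h1 := mon_mem 𝒜 hx b
    rwa [hwb] at h1

theorem mul_le_part (a b : ℕ) : 𝒜 a * 𝒜 b ≤ 𝒜 (a + b) := by
  rw [Submodule.mul_le]
  intro r hr s hs
  exact SetLike.mul_mem_graded hr hs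

/-- Iteration: `R_{n + j ω} ⊆ (R_ω)^j R_n` for `n ≥ N ω`. -/
theorem part_le_pow_mul (hx : ∀ i, x i ∈ 𝒜 (w i)) (hw : ∀ i, 0 < w i)
    (hgen : Algebra.adjoin k (Set.range x) = ⊤) {ω : ℕ} (hω : ∀ i, w i ∣ ω) (hω0 : 0 < ω)
    {n : ℕ} (hn : Fintype.card ι * ω ≤ n) (j : ℕ) : 𝒜 (n + j * ω) ≤ 𝒜 ω ^ j * 𝒜 n := by
  induction j with
  | zero => simp
  | succ j ih =>
    have h1 : 𝒜 (n + (j + 1) * ω) ≤ 𝒜 ω * 𝒜 (n + j * ω) := by
      have h2 := part_le_mul 𝒜 hx hw hgen hω hω0 (n := n + (j + 1) * ω)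
        (by nlinarith) (by nlinarith)
      have h3 : n + (j + 1) * ω - ω = n + j * ω := by
        rw [Nat.add_mul, one_mul]; omega
      rwa [h3] at h2
    refine h1.trans ?_
    rw [pow_succ', mul_assoc]
    exact mul_le_mul' le_rfl ih

theorem pow_le_part (a j : ℕ) : 𝒜 a ^ j ≤ 𝒜 (j * a) := by
  induction j with
  | zero =>
    rw [pow_zero, zero_mul, Submodule.one_le]
    exact SetLike.GradedOne.one_mem
  | succ j ih =>
    rw [pow_succ]
    refine (mul_le_mul' ih le_rfl).trans ((mul_le_part 𝒜 _ _).trans ?_)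
    rw [Nat.add_mul, one_mul]

/-- **Veronese.** For every positive multiple `m` of `N ω`, `R_{m t} = (R_m)^t`, `t ≥ 1`. -/
theorem part_eq_pow (hx : ∀ i, x i ∈ 𝒜 (w i)) (hw : ∀ i, 0 < w i)
    (hgen : Algebra.adjoin k (Set.range x) = ⊤) {ω : ℕ} (hω : ∀ i, w i ∣ ω) (hω0 : 0 < ω)
    {m : ℕ} (hm : Fintype.card ι * ω ∣ m) (hmω : ω ∣ m) (hm0 : 0 < m) (t : ℕ) :
    𝒜 (m * (t + 1)) = 𝒜 m ^ (t + 1) := by
  have hcard : Fintype.card ι * ω ≤ m := Nat.le_of_dvd hm0 hm
  apply le_antisymm
  · induction t with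
    | zero => simp
    | succ t ih =>
      obtain ⟨c, hc⟩ := hmω
      have h1 : 𝒜 (m * (t + 1 + 1)) ≤ 𝒜 ω ^ c * 𝒜 (m * (t + 1)) := by
        have h2 := part_le_pow_mul 𝒜 hx hw hgen hω hω0 (n := m * (t + 1))
          (hcard.trans (Nat.le_mul_of_pos_right _ (Nat.succ_pos t))) c
        have h3 : m * (t + 1) + c * ω = m * (t + 1 + 1) := by
          rw [mul_comm c ω, ← hc]; ring
        rwa [h3] at h2
      have h4 : 𝒜 ω ^ c ≤ 𝒜 m := by
        have := pow_le_part 𝒜 ω c
        rwa [mul_comm c ω, ← hc] at this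
      refine h1.trans ?_
      rw [pow_succ' (𝒜 m) (t + 1)]
      exact mul_le_mul' h4 ih
  · have := pow_le_part 𝒜 m (t + 1)
    rwa [mul_comm] at this

end Vale.Agent.P271.Ver
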