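import Vale.Agent.P271.Ver.Prime
import Vale.Agent.P271.Deg.Main
import Vale.Agent.P271.H58.Cut

/-!
# P271 / Ver / Main : DEG, CUT, prime data for a finitely generated graded domain (weighted)

`VerOK 𝒜 m`: the `m`-th Veronese subring is generated in degree one. For such `m` the results on
standard graded domains transfer to `R`.
-/

namespace Vale.Agent.P271.Ver

open DirectSum Vale.Agent.P271.Drop Vale.Agent.P271.Deg

variable {k R : Type*} [Field k] [CommRing R] [Algebra k R]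

/-- `m` is a good Veronese index. -/
structure VerOK (𝒜 : ℕ → Submodule k R) (m : ℕ) : Prop where
  pos : 0 < m
  zero : ∀ r ∈ 𝒜 0, ∃ c : k, r = algebraMap k R c
  pow : ∀ t, 𝒜 (m * (t + 1)) ≤ 𝒜 m ^ (t + 1)
  fin : ∀ t, Module.Finite k (𝒜 t)
  ne : 𝒜 m ≠ ⊥

/-- A finitely generated graded algebra with `R_0 = k` is generated by finitely many homogeneous
elements of positive degree. -/
theorem exists_homogeneous_generators (𝒜 : ℕ → Submodule k R) [GradedAlgebra 𝒜]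
    [hft : Algebra.FiniteType k R] (h0 : ∀ r ∈ 𝒜 0, ∃ c : k, r = algebraMap k R c) :
    ∃ (s : Finset R) (w : s → ℕ), (∀ i, 0 < w i) ∧ (∀ i : s, (i : R) ∈ 𝒜 (w i)) ∧
      Algebra.adjoin k (Set.range (fun i : s => (i : R))) = ⊤ := by
  classical
  obtain ⟨G, hG⟩ := hft.out
  let s : Finset R := G.biUnion (fun g => ((decompose 𝒜 g).support.filter (fun i => 0 < i)).image
    (fun i => (decompose 𝒜 g i : R)))
  have hs : ∀ i : s, ∃ w, 0 < w ∧ (i : R) ∈ 𝒜 w := by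
    rintro ⟨r, hr⟩
    simp only [s, Finset.mem_biUnion, Finset.mem_image, Finset.mem_filter] at hr
    obtain ⟨g, -, i, ⟨-, hi⟩, rfl⟩ := hr
    exact ⟨i, hi, (decompose 𝒜 g i).2⟩
  choose w hw hw' using hs
  refine ⟨s, w, hw, hw', ?_⟩
  rw [eq_top_iff, ← hG]
  apply Algebra.adjoin_le
  intro g hg
  rw [SetLike.mem_coe, ← DirectSum.sum_support_decompose 𝒜 g]
  refine Subalgebra.sum_mem _ (fun i hi => ?_)
  rcases Nat.eq_zero_or_pos i with h | h
  · subst h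
    obtain ⟨c, hc⟩ := h0 _ (decompose 𝒜 g 0).2
    rw [hc]
    exact Subalgebra.algebraMap_mem _ c
  · apply Algebra.subset_adjoin
    refine ⟨⟨(decompose 𝒜 g i : R), ?_⟩, rfl⟩
    simp only [s, Finset.mem_biUnion, Finset.mem_image, Finset.mem_filter]
    exact ⟨g, hg, i, ⟨hi, h⟩, rfl⟩

/-- **Good Veronese indices exist**: all positive multiples of some `m₁`. -/
theorem exists_verOK (𝒜 : ℕ → Submodule k R) [GradedAlgebra 𝒜] [IsDomain R]
    [Algebra.FiniteType k R] (h0 : ∀ r ∈ 𝒜 0, ∃ c : k, r = algebraMap k R c)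
    {k₀ : ℕ} (hk₀ : 0 < k₀) (hne : 𝒜 k₀ ≠ ⊥) :
    ∃ m₁, 0 < m₁ ∧ ∀ m, m₁ ∣ m → 0 < m → VerOK 𝒜 m := by
  classical
  obtain ⟨s, w, hw, hx, hgen⟩ := exists_homogeneous_generators 𝒜 h0
  set ω := ∏ i, w i with hω
  have hω0 : 0 < ω := Finset.prod_pos (fun i _ => hw i)
  have hdvd : ∀ i, w i ∣ ω := fun i => Finset.dvd_prod_of_mem _ (Finset.mem_univ i)
  obtain ⟨r, hr, hr0⟩ := Submodule.exists_mem_ne_zero_of_ne_bot hne
  -- there is at least one generator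
  have hcard : 0 < Fintype.card s := by
    rw [Fintype.card_pos_iff]
    by_contra hemp
    rw [not_nonempty_iff] at hemp
    have h1 := mem_span_mon 𝒜 hx hgen hr
    have h2 : {y | ∃ a : s → ℕ, wt w a = k₀ ∧ mon (fun i : s => (i : R)) a = y} = ∅ := by
      ext y
      simp only [Set.mem_ofPred_eq, Set.mem_empty_iff_false, iff_false, not_exists, not_and]
      intro a ha
      unfold wt at ha
      simp at ha
      omega
    rw [h2, Submodule.span_empty, Submodule.mem_bot] at h1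
    exact hr0 h1
  refine ⟨Fintype.card s * ω * k₀, by positivity, fun m hm hm0 => ?_⟩
  have hm1 : Fintype.card s * ω ∣ m := (dvd_mul_right _ _).trans hm
  have hm2 : ω ∣ m := (dvd_mul_left _ _).trans hm1
  have hm3 : k₀ ∣ m := (dvd_mul_left _ _).trans hm
  refine ⟨hm0, h0, fun t => (part_eq_pow 𝒜 hx hw hgen hdvd hω0 hm1 hm2 hm0 t).le,
    finite_part 𝒜 hx hw hgen, ?_⟩
  obtain ⟨c, rfl⟩ := hm3
  intro hbot
  have h3 : r ^ c ∈ 𝒜 (k₀ * c) := by
    have := SetLike.pow_mem_graded c hr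
    rwa [smul_eq_mul, mul_comm] at this
  rw [hbot, Submodule.mem_bot] at h3
  exact pow_ne_zero c hr0 h3

section

variable {𝒜 : ℕ → Submodule k R} [GradedAlgebra 𝒜] {m : ℕ}

theorem VerOK.gen (h : VerOK 𝒜 m) : Algebra.adjoin k (verGr 𝒜 m 1 : Set (ver 𝒜 m)) = ⊤ :=
  ver_gen h.zero h.pow

theorem VerOK.fg (h : VerOK 𝒜 m) : (verGr 𝒜 m 1).FG := by
  have := h.fin (m * 1)
  have h1 : Module.Finite k (verGr 𝒜 m 1) := verGr_finite
  exact Module.Finite.iff_fg.mp h1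

theorem VerOK.ne_bot (h : VerOK 𝒜 m) : verGr 𝒜 m 1 ≠ ⊥ := by
  intro hbot
  obtain ⟨r, hr, hr0⟩ := Submodule.exists_mem_ne_zero_of_ne_bot h.ne
  have hr' : r ∈ 𝒜 (m * 1) := by rwa [mul_one]
  have h1 : (⟨r, mem_ver_of_mem hr'⟩ : ver 𝒜 m) ∈ verGr 𝒜 m 1 := hr'
  rw [hbot, Submodule.mem_bot] at h1
  exact hr0 (congrArg (fun x : ver 𝒜 m => (x : R)) h1)

/-- The injection `R^{(m)} ⧸ (P ∩ R^{(m)}) → R ⧸ P`. -/
noncomputable def resMap (𝒜 : ℕ → Submodule k R) [GradedAlgebra 𝒜] (m : ℕ) (P : Ideal R) :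
    (ver 𝒜 m ⧸ res 𝒜 m P) →ₐ[k] (R ⧸ P) :=
  Ideal.quotientMapₐ P (ver 𝒜 m).val le_rfl

theorem resMap_mk (P : Ideal R) (x : ver 𝒜 m) :
    resMap 𝒜 m P (Ideal.Quotient.mk _ x) = Ideal.Quotient.mk P (x : R) := rfl

theorem resMap_injective (P : Ideal R) : Function.Injective (resMap 𝒜 m P) := by
  rw [injective_iff_map_eq_zero]
  intro x hx
  obtain ⟨x, rfl⟩ := Ideal.Quotient.mk_surjective x
  rw [resMap_mk, Ideal.Quotient.eq_zero_iff_mem] at hx
  exact Ideal.Quotient.eq_zero_iff_mem.mpr hx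

/-- Transfer of Noether parameters from the Veronese subring. -/
theorem noether_transfer (hm : 0 < m) (P : Ideal R) {d : ℕ} {y : Fin (d + 1) → ver 𝒜 m}
    (hind : AlgebraicIndependent k (fun i => Ideal.Quotient.mk (res 𝒜 m P) (y i)))
    (hint : ∀ x : ver 𝒜 m ⧸ res 𝒜 m P, IsIntegral
      (Algebra.adjoin k (Set.range (fun i => Ideal.Quotient.mk (res 𝒜 m P) (y i)))) x) :
    AlgebraicIndependent k (fun i => Ideal.Quotient.mk P (y i : R)) ∧
    ∀ x : R ⧸ P, IsIntegral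
      (Algebra.adjoin k (Set.range (fun i => Ideal.Quotient.mk P (y i : R)))) x := by
  classical
  constructor
  · have h1 : AlgebraicIndependent k
        (resMap 𝒜 m P ∘ fun i => Ideal.Quotient.mk (res 𝒜 m P) (y i)) :=
      hind.map' (f := resMap 𝒜 m P) (resMap_injective P)
    have h2 : (resMap 𝒜 m P ∘ fun i => Ideal.Quotient.mk (res 𝒜 m P) (y i)) =
        fun i => Ideal.Quotient.mk P (y i : R) := funext (fun i => resMap_mk P (y i))
    rwa [h2] at h1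
  · intro x
    obtain ⟨r, rfl⟩ := Ideal.Quotient.mk_surjective x
    rw [← DirectSum.sum_support_decompose 𝒜 r, map_sum]
    refine IsIntegral.sum _ (fun i _ => ?_)
    apply IsIntegral.of_pow hm
    rw [← map_pow]
    have h1 := pow_mem_part (m := m) (decompose 𝒜 r i).2
    have h2 : Ideal.Quotient.mk P ((decompose 𝒜 r i : R) ^ m) =
        resMap 𝒜 m P (Ideal.Quotient.mk _ ⟨_, mem_ver_of_mem h1⟩) := rfl
    rw [h2]
    -- push the integral equation through `resMap`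
    set A₁ := Algebra.adjoin k (Set.range (fun i => Ideal.Quotient.mk (res 𝒜 m P) (y i)))
    set A₂ := Algebra.adjoin k (Set.range (fun i => Ideal.Quotient.mk P (y i : R)))
    have hle : ∀ a : A₁, resMap 𝒜 m P a ∈ A₂ := by
      intro a
      have h3 : A₁.map (resMap 𝒜 m P) = A₂ := by
        rw [AlgHom.map_adjoin]
        congr 1
        rw [← Set.range_comp]
        rfl
      rw [← h3]
      exact ⟨a, a.2, rfl⟩
    let φ : A₁ →+* A₂ := (((resMap 𝒜 m P).comp A₁.val).codRestrict A₂ hle).toRingHom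
    refine (hint (Ideal.Quotient.mk _ ⟨_, mem_ver_of_mem h1⟩)).map_of_comp_eq φ
      (resMap 𝒜 m P).toRingHom ?_
    ext a
    rfl

variable [CharZero k]

/-- **Prime data** over the weighted ring. -/
theorem prime_data (h : VerOK 𝒜 m) {P : Ideal R} (hPp : P.IsPrime) (hP : P.IsHomogeneous 𝒜)
    (hrel : ¬ (𝒜 m : Set R) ⊆ P) :
    ∃ (d : ℕ) (y : Fin (d + 1) → R) (D : ℕ), (∀ i, y i ∈ 𝒜 m) ∧
      AlgebraicIndependent k (fun i => Ideal.Quotient.mk P (y i)) ∧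
      (∀ x : R ⧸ P, IsIntegral
        (Algebra.adjoin k (Set.range (fun i => Ideal.Quotient.mk P (y i)))) x) ∧
      1 ≤ D ∧ TwoSided d D (fun t => hilb 𝒜 P (m * t)) := by
  have : NeZero m := ⟨h.pos.ne'⟩
  have hrel' : ¬ (verGr 𝒜 m 1 : Set (ver 𝒜 m)) ⊆ res 𝒜 m P := by
    rwa [verGr_one_subset_iff]
  obtain ⟨d, y, D, hy, hind, hint, hD, hTS⟩ := Deg.prime_data (verGr 𝒜 m) h.fg h.gen
    (P := res 𝒜 m P) res_isPrime (res_isHomogeneous hP) hrel'
  obtain ⟨hind', hint'⟩ := noether_transfer h.pos P hind hint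
  refine ⟨d, fun i => (y i : R), D, fun i => ?_, hind', hint', hD, ?_⟩
  · have := mem_verGr.mp (hy i)
    rwa [mul_one] at this
  · intro t
    have := hTS t
    rw [hilb_res] at this
    exact this

/-- **Uniform degree bound** over the weighted ring. -/
theorem deg_bound [IsDomain R] (h : VerOK 𝒜 m) (M : ℕ) :
    ∃ d₀ D₀ : ℕ, ∀ S : Set R, (∀ s ∈ S, ∃ j ≤ M, s ∈ 𝒜 j) → ∀ P ∈ (Ideal.span S).minimalPrimes,
      ¬ (𝒜 m : Set R) ⊆ P → P.IsHomogeneous 𝒜 ∧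
      ∃ (d : ℕ) (y : Fin (d + 1) → R) (D : ℕ), (∀ i, y i ∈ 𝒜 m) ∧
        AlgebraicIndependent k (fun i => Ideal.Quotient.mk P (y i)) ∧
        (∀ x : R ⧸ P, IsIntegral
          (Algebra.adjoin k (Set.range (fun i => Ideal.Quotient.mk P (y i)))) x) ∧
        d ≤ d₀ ∧ 1 ≤ D ∧ D ≤ D₀ ∧ TwoSided d D (fun t => hilb 𝒜 P (m * t)) := by
  have : NeZero m := ⟨h.pos.ne'⟩
  obtain ⟨d₀, D₀, hb⟩ := Deg.deg_bound (verGr 𝒜 m) h.fg h.ne_bot h.gen M
  refine ⟨d₀, D₀, fun S hS P hPm hrel => ?_⟩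
  have hspan : (Ideal.span S).IsHomogeneous 𝒜 := by
    refine Ideal.homogeneous_span 𝒜 _ ?_
    intro x hx
    obtain ⟨j, -, hj⟩ := hS x hx
    exact ⟨j, hj⟩
  have hPh := isHomogeneous_of_mem_minimalPrimes 𝒜 hspan hPm
  refine ⟨hPh, ?_⟩
  -- the powers
  let S' : Set (ver 𝒜 m) := {x | ∃ s ∈ S, (x : R) = s ^ m}
  have hS'deg : ∀ x ∈ S', ∃ j ≤ M, x ∈ verGr 𝒜 m j := by
    rintro x ⟨s, hs, hx⟩
    obtain ⟨j, hj, hsj⟩ := hS s hs
    refine ⟨j, hj, ?_⟩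
    rw [mem_verGr, hx]
    exact pow_mem_part hsj
  have himg : (fun s : ver 𝒜 m => (s : R)) '' S' = (fun s => s ^ m) '' S := by
    ext r
    constructor
    · rintro ⟨x, ⟨s, hs, hx⟩, rfl⟩
      exact ⟨s, hs, hx.symm⟩
    · rintro ⟨s, hs, rfl⟩
      obtain ⟨j, hj, hsj⟩ := hS s hs
      exact ⟨⟨s ^ m, mem_ver_of_mem (pow_mem_part hsj)⟩, ⟨s, hs, rfl⟩, rfl⟩
  have hPm' : P ∈ (Ideal.span ((fun s : ver 𝒜 m => (s : R)) '' S')).minimalPrimes := by
    rw [himg]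
    refine ⟨⟨hPm.1.1, ?_⟩, ?_⟩
    · rw [Ideal.span_le]
      rintro _ ⟨s, hs, rfl⟩
      exact P.pow_mem_of_mem (hPm.1.2 (Ideal.subset_span hs)) m h.pos
    · rintro Q ⟨hQ, hSQ⟩ hQP
      refine hPm.2 ⟨hQ, ?_⟩ hQP
      rw [Ideal.span_le]
      intro s hs
      exact hQ.mem_of_pow_mem m (hSQ (Ideal.subset_span ⟨s, hs, rfl⟩))
  have hres := res_mem_minimalPrimes (S := S') (fun x hx => by
    obtain ⟨j, -, hj⟩ := hS'deg x hx
    exact ⟨j, hj⟩) hPm'
  have hrel' : ¬ (verGr 𝒜 m 1 : Set (ver 𝒜 m)) ⊆ res 𝒜 m P := by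
    rwa [verGr_one_subset_iff]
  obtain ⟨-, d, y, D, hy, hind, hint, hd, hD, hDD, hTS⟩ := hb S' hS'deg _ hres hrel'
  obtain ⟨hind', hint'⟩ := noether_transfer h.pos P hind hint
  refine ⟨d, fun i => (y i : R), D, fun i => ?_, hind', hint', hd, hD, hDD, ?_⟩
  · have := mem_verGr.mp (hy i)
    rwa [mul_one] at this
  · intro t
    have := hTS t
    rw [hilb_res] at this
    exact this

/-- Strict inclusion of relevant homogeneous primes: the growth exponent drops. -/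
theorem exponent_lt [IsDomain R] (h : VerOK 𝒜 m) {P Q : Ideal R} (hP : P.IsPrime)
    (hPh : P.IsHomogeneous 𝒜) (hQ : Q.IsPrime) (hQh : Q.IsHomogeneous 𝒜) (hPQ : P < Q)
    (hrel : ¬ (𝒜 m : Set R) ⊆ Q) {d D e E : ℕ} (hD : 1 ≤ D) (hE : 1 ≤ E)
    (hTS : TwoSided d D (fun t => hilb 𝒜 P (m * t)))
    (hTSQ : TwoSided e E (fun t => hilb 𝒜 Q (m * t))) : e < d := by
  have : NeZero m := ⟨h.pos.ne'⟩
  have hlt : res 𝒜 m P < res 𝒜 m Q := by
    refine lt_of_le_of_ne (res_mono hPQ.le) (fun heq => hPQ.ne ?_)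
    exact res_injective hPh hQh heq
  refine Deg.exponent_lt (verGr 𝒜 m) h.fg h.ne_bot h.gen (P := res 𝒜 m P) (Q := res 𝒜 m Q)
    res_isPrime (res_isHomogeneous hPh) res_isPrime (res_isHomogeneous hQh) hlt
    (by rwa [verGr_one_subset_iff]) hD hE ?_ ?_
  · intro t; rw [hilb_res]; exact hTS t
  · intro t; rw [hilb_res]; exact hTSQ t

/-- **CUT** over the weighted ring: a relevant homogeneous prime with Hilbert data `(d, D)` is cut
out by its elements of degree `m M`, for every `M ≥ D`. -/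
theorem cut [IsAlgClosed k] (h : VerOK 𝒜 m) {P : Ideal R} (hPp : P.IsPrime)
    (hP : P.IsHomogeneous 𝒜) (hrel : ¬ (𝒜 m : Set R) ⊆ P) {d D : ℕ} (hD1 : 1 ≤ D)
    (hTS : TwoSided d D (fun t => hilb 𝒜 P (m * t))) (φ : R →ₐ[k] k)
    (hφP : ∃ a ∈ P, φ a ≠ 0) (hφ : ∃ s ∈ 𝒜 m, φ s ≠ 0) {M : ℕ} (hM : D ≤ M) :
    ∃ g ∈ P, g ∈ 𝒜 (m * M) ∧ φ g ≠ 0 := by
  classical
  have : NeZero m := ⟨h.pos.ne'⟩
  have hrel' : ¬ (verGr 𝒜 m 1 : Set (ver 𝒜 m)) ⊆ res 𝒜 m P := by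
    rwa [verGr_one_subset_iff]
  have hresh := res_isHomogeneous (m := m) hP
  obtain ⟨d', y, D', hy, hind, hint, hD', hTS'⟩ := Deg.prime_data (verGr 𝒜 m) h.fg h.gen
    (P := res 𝒜 m P) res_isPrime hresh hrel'
  have hTS'' : TwoSided d D (hilb (verGr 𝒜 m) (res 𝒜 m P)) := by
    intro t; rw [hilb_res]; exact hTS t
  obtain ⟨rfl, rfl⟩ := hTS''.unique hTS' hD1 hD'
  let _ := qgGraded hresh
  have hdom : IsDomain (ver 𝒜 m ⧸ res 𝒜 m P) := Ideal.Quotient.isDomain _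
  have hfin : ∀ t, Module.Finite k (verGr 𝒜 m t) := fun t => by
    have := h.fin (m * t)
    exact verGr_finite
  -- a homogeneous element of `P` at which `φ` does not vanish
  obtain ⟨a, haP, ha⟩ := hφP
  obtain ⟨i, hi⟩ : ∃ i, φ (decompose 𝒜 a i : R) ≠ 0 := by
    by_contra hcon
    push Not at hcon
    apply ha
    rw [← DirectSum.sum_support_decompose 𝒜 a, map_sum]
    exact Finset.sum_eq_zero (fun i _ => hcon i)
  have ha1 := pow_mem_part (m := m) (decompose 𝒜 a i).2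
  obtain ⟨e, he, g, hg, hgP, hgφ⟩ := Cut.cut (verGr 𝒜 m) (qg (verGr 𝒜 m) (res 𝒜 m P))
    (Ideal.Quotient.mkₐ k (res 𝒜 m P)) (fun t a ha => mk_mem_qg ha) (fun b hb => mem_qg.1 hb)
    h.gen (qg_gen h.gen) (qg_fg h.fg) (fun i => mk_mem_qg (hy i)) hind hint
    (D := D) (fun t => ⟨by unfold qg; infer_instance, (hTS'' t).2⟩)
    (φ.comp (ver 𝒜 m).val) (a₀ := ⟨_, mem_ver_of_mem ha1⟩)
    (Ideal.Quotient.eq_zero_iff_mem.mpr
      (show ((decompose 𝒜 a i : R) ^ m) ∈ P from P.pow_mem_of_mem (hP i haP) m h.pos))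
    (by
      change φ ((decompose 𝒜 a i : R) ^ m) ≠ 0
      rw [map_pow]
      exact pow_ne_zero m hi)
  obtain ⟨s, hs, hsφ⟩ := hφ
  have hgP' : (g : R) ∈ P :=
    mem_res.mp ((Ideal.Quotient.eq_zero_iff_mem (I := res 𝒜 m P)).mp hgP)
  refine ⟨(g : R) * s ^ (M - e), P.mul_mem_right _ hgP', ?_, ?_⟩
  · have h1 : (g : R) ∈ 𝒜 (m * e) := hg
    have h2 : s ^ (M - e) ∈ 𝒜 (m * (M - e)) := by
      have := SetLike.pow_mem_graded (M - e) hs
      rwa [smul_eq_mul, mul_comm] at this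
    have h3 := SetLike.mul_mem_graded h1 h2
    rwa [← Nat.mul_add, Nat.add_sub_cancel' (he.trans hM)] at h3
  · rw [map_mul, map_pow]
    exact mul_ne_zero hgφ (pow_ne_zero _ hsφ)

end

end Vale.Agent.P271.Ver
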