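import Vale.Agent.P271.Ver.Sub
import Vale.Agent.P271.H58.DropGraded

/-!
# P271 / Ver / Prime : homogeneous primes of `R` and of its Veronese subalgebra
-/

namespace Vale.Agent.P271.Ver

open DirectSum

variable {k R : Type*} [Field k] [CommRing R] [Algebra k R]
  {𝒜 : ℕ → Submodule k R} [GradedAlgebra 𝒜] {m : ℕ}

noncomputable instance instVerGraded [NeZero m] : GradedAlgebra (verGr 𝒜 m) :=
  verGraded (NeZero.pos m)

/-- The contraction of an ideal to the Veronese subalgebra. -/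
def res (𝒜 : ℕ → Submodule k R) [GradedAlgebra 𝒜] (m : ℕ) (P : Ideal R) : Ideal (ver 𝒜 m) :=
  P.comap (algebraMap (ver 𝒜 m) R)

theorem mem_res {P : Ideal R} {r : ver 𝒜 m} : r ∈ res 𝒜 m P ↔ (r : R) ∈ P := Iff.rfl

instance res_isPrime {P : Ideal R} [P.IsPrime] : (res 𝒜 m P).IsPrime := by
  unfold res; infer_instance

theorem res_mono {P Q : Ideal R} (h : P ≤ Q) : res 𝒜 m P ≤ res 𝒜 m Q := Ideal.comap_mono h

theorem pow_mem_part {i : ℕ} {r : R} (hr : r ∈ 𝒜 i) : r ^ m ∈ 𝒜 (m * i) := by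
  have := SetLike.pow_mem_graded m hr
  rwa [smul_eq_mul] at this

/-- The components of an element of the Veronese subalgebra. -/
theorem coe_decompose [NeZero m] (r : ver 𝒜 m) (t : ℕ) :
    ((decompose (verGr 𝒜 m) r t : ver 𝒜 m) : R) = (decompose 𝒜 (r : R) (m * t) : R) := by
  classical
  have h1 : (r : R) = ∑ s ∈ (decompose (verGr 𝒜 m) r).support,
      ((decompose (verGr 𝒜 m) r s : ver 𝒜 m) : R) := by
    conv_lhs => rw [← DirectSum.sum_support_decompose (verGr 𝒜 m) r]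
    rw [AddSubmonoidClass.coe_finsetSum]
  conv_rhs => rw [h1]
  rw [decompose_sum, DirectSum.sum_apply, AddSubmonoidClass.coe_finsetSum]
  rw [Finset.sum_eq_single t]
  · exact (decompose_of_mem_same 𝒜 (decompose (verGr 𝒜 m) r t).2).symm
  · intro s _ hst
    exact decompose_of_mem_ne 𝒜 (decompose (verGr 𝒜 m) r s).2
      (fun h => hst (Nat.eq_of_mul_eq_mul_left (NeZero.pos m) h))
  · intro hs
    rw [DFinsupp.notMem_support_iff] at hs
    rw [hs]
    simp

theorem res_isHomogeneous [NeZero m] {P : Ideal R} (hP : P.IsHomogeneous 𝒜) :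
    (res 𝒜 m P).IsHomogeneous (verGr 𝒜 m) := by
  intro t r hr
  rw [mem_res, coe_decompose]
  exact hP _ hr

/-- The contraction reflects inclusions of homogeneous primes. -/
theorem le_of_res_le [NeZero m] {P Q : Ideal R} (hP : P.IsHomogeneous 𝒜) [hQ : Q.IsPrime]
    (h : res 𝒜 m P ≤ res 𝒜 m Q) : P ≤ Q := by
  classical
  intro r hr
  rw [← DirectSum.sum_support_decompose 𝒜 r]
  refine Ideal.sum_mem _ (fun i _ => ?_)
  have h1 : (decompose 𝒜 r i : R) ∈ P := hP i hr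
  have h3 : (decompose 𝒜 r i : R) ^ m ∈ Q :=
    h (show (⟨_, mem_ver_of_mem (pow_mem_part (decompose 𝒜 r i).2)⟩ : ver 𝒜 m) ∈ res 𝒜 m P from
      P.pow_mem_of_mem h1 m (NeZero.pos m))
  exact hQ.mem_of_pow_mem m h3

theorem res_injective [NeZero m] {P Q : Ideal R} (hP : P.IsHomogeneous 𝒜) (hQ : Q.IsHomogeneous 𝒜)
    [P.IsPrime] [Q.IsPrime] (h : res 𝒜 m P = res 𝒜 m Q) : P = Q :=
  le_antisymm (le_of_res_le hP h.le) (le_of_res_le hQ h.ge)

/-- Every homogeneous prime of the Veronese subalgebra is the contraction of a homogeneous prime. -/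
theorem exists_res_eq [NeZero m] {q : Ideal (ver 𝒜 m)} [q.IsPrime]
    (hq : q.IsHomogeneous (verGr 𝒜 m)) :
    ∃ Q : Ideal R, Q.IsPrime ∧ Q.IsHomogeneous 𝒜 ∧ res 𝒜 m Q = q := by
  classical
  have hint : Algebra.IsIntegral (ver 𝒜 m) R := ⟨fun r => isIntegral_ver (NeZero.pos m) r⟩
  obtain ⟨Q', -, hQ', hQq⟩ := Ideal.exists_ideal_over_prime_of_isIntegral (S := R) q ⊥ (by
    intro c hc
    have h0 : (c : R) = 0 := by simpa using hc
    have : c = 0 := Subtype.ext h0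
    rw [this]; exact Ideal.zero_mem _)
  refine ⟨(Q'.homogeneousCore 𝒜).toIdeal, hQ'.homogeneousCore, (Q'.homogeneousCore 𝒜).isHomogeneous,
    le_antisymm ?_ ?_⟩
  · rw [← hQq]
    exact Ideal.comap_mono (Ideal.toIdeal_homogeneousCore_le 𝒜 Q')
  · intro r hr
    rw [mem_res]
    have h1 : (r : R) = ∑ s ∈ (decompose (verGr 𝒜 m) r).support,
        ((decompose (verGr 𝒜 m) r s : ver 𝒜 m) : R) := by
      conv_lhs => rw [← DirectSum.sum_support_decompose (verGr 𝒜 m) r]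
      rw [AddSubmonoidClass.coe_finsetSum]
    rw [h1]
    refine Ideal.sum_mem _ (fun s _ => ?_)
    have h2 : (decompose (verGr 𝒜 m) r s : ver 𝒜 m) ∈ q := hq s hr
    refine Ideal.mem_homogeneousCore_of_homogeneous_of_mem
      ⟨m * s, (decompose (verGr 𝒜 m) r s).2⟩ ?_
    rw [← hQq] at h2
    exact h2

/-- The contraction of a homogeneous prime minimal over homogeneous elements of the Veronese
subalgebra is minimal. -/
theorem res_mem_minimalPrimes [NeZero m] {S : Set (ver 𝒜 m)}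
    (hS : ∀ s ∈ S, SetLike.IsHomogeneousElem (verGr 𝒜 m) s) {P : Ideal R}
    (hP : P ∈ (Ideal.span ((fun s : ver 𝒜 m => (s : R)) '' S)).minimalPrimes) :
    res 𝒜 m P ∈ (Ideal.span S).minimalPrimes := by
  have hPp : P.IsPrime := hP.1.1
  refine ⟨⟨res_isPrime, ?_⟩, ?_⟩
  · rw [Ideal.span_le]
    intro s hs
    exact hP.1.2 (Ideal.subset_span ⟨s, hs, rfl⟩)
  · rintro q ⟨hq, hSq⟩ hqP
    have hcore : (q.homogeneousCore (verGr 𝒜 m)).toIdeal.IsPrime := hq.homogeneousCore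
    obtain ⟨Q, hQ, hQh, hQq⟩ := exists_res_eq (q := (q.homogeneousCore (verGr 𝒜 m)).toIdeal)
      (q.homogeneousCore (verGr 𝒜 m)).isHomogeneous
    have h1 : res 𝒜 m Q ≤ res 𝒜 m P := by
      rw [hQq]
      exact (Ideal.toIdeal_homogeneousCore_le (verGr 𝒜 m) q).trans hqP
    have h2 : Q ≤ P := le_of_res_le hQh h1
    have h3 : Ideal.span ((fun s : ver 𝒜 m => (s : R)) '' S) ≤ Q := by
      rw [Ideal.span_le]
      rintro _ ⟨s, hs, rfl⟩
      have h4 : s ∈ (q.homogeneousCore (verGr 𝒜 m)).toIdeal :=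
        Ideal.mem_homogeneousCore_of_homogeneous_of_mem (hS s hs) (hSq (Ideal.subset_span hs))
      rw [← hQq] at h4
      exact h4
    have h5 := hP.2 ⟨hQ, h3⟩ h2
    have h6 : res 𝒜 m P ≤ res 𝒜 m Q := res_mono h5
    rw [hQq] at h6
    exact h6.trans (Ideal.toIdeal_homogeneousCore_le (verGr 𝒜 m) q)

/-- Conversely: a homogeneous prime whose contraction is minimal is minimal. -/
theorem mem_minimalPrimes_of_res [NeZero m] {S : Set (ver 𝒜 m)}
    (hS : ∀ s ∈ S, SetLike.IsHomogeneousElem (verGr 𝒜 m) s) {P : Ideal R} [hPp : P.IsPrime]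
    (hPh : P.IsHomogeneous 𝒜) (hP : res 𝒜 m P ∈ (Ideal.span S).minimalPrimes) :
    P ∈ (Ideal.span ((fun s : ver 𝒜 m => (s : R)) '' S)).minimalPrimes := by
  refine ⟨⟨hPp, ?_⟩, ?_⟩
  · rw [Ideal.span_le]
    rintro _ ⟨s, hs, rfl⟩
    exact hP.1.2 (Ideal.subset_span hs)
  · rintro Q ⟨hQ, hSQ⟩ hQP
    have hcore : (Q.homogeneousCore 𝒜).toIdeal.IsPrime := hQ.homogeneousCore
    have hle : (Q.homogeneousCore 𝒜).toIdeal ≤ Q := Ideal.toIdeal_homogeneousCore_le 𝒜 Q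
    have h1 : Ideal.span S ≤ res 𝒜 m (Q.homogeneousCore 𝒜).toIdeal := by
      rw [Ideal.span_le]
      intro s hs
      obtain ⟨t, ht⟩ := hS s hs
      exact Ideal.mem_homogeneousCore_of_homogeneous_of_mem ⟨m * t, ht⟩
        (hSQ (Ideal.subset_span ⟨s, hs, rfl⟩))
    have h2 := hP.2 ⟨res_isPrime, h1⟩ (res_mono (hle.trans hQP))
    exact (le_of_res_le hPh h2).trans hle

/-- A prime containing `R_m` contains all homogeneous elements of positive degree. -/
theorem mem_of_part_subset [NeZero m] (hpow : ∀ t, 𝒜 (m * (t + 1)) ≤ 𝒜 m ^ (t + 1))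
    {P : Ideal R} [hP : P.IsPrime] (h : (𝒜 m : Set R) ⊆ P) {i : ℕ} (hi : 0 < i) {r : R}
    (hr : r ∈ 𝒜 i) : r ∈ P := by
  apply hP.mem_of_pow_mem m
  have h1 : r ^ m ∈ 𝒜 (m * i) := pow_mem_part hr
  obtain ⟨t, rfl⟩ : ∃ t, i = t + 1 := ⟨i - 1, by omega⟩
  have h2 := hpow t h1
  have h3 : ∀ j, 𝒜 m ^ (j + 1) ≤ (P.restrictScalars k) := by
    intro j
    rw [pow_succ, Submodule.mul_le]
    intro a _ b hb
    exact P.mul_mem_left a (h hb)
  exact h3 t h2

theorem verGr_one_subset_iff {P : Ideal R} :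
    ((verGr 𝒜 m 1 : Set (ver 𝒜 m)) ⊆ res 𝒜 m P) ↔ (𝒜 m : Set R) ⊆ P := by
  constructor
  · intro h r hr
    have hr' : r ∈ 𝒜 (m * 1) := by rwa [mul_one]
    exact h (show (⟨r, mem_ver_of_mem hr'⟩ : ver 𝒜 m) ∈ verGr 𝒜 m 1 from hr')
  · intro h r hr
    have hr' : (r : R) ∈ 𝒜 (m * 1) := hr
    rw [mul_one] at hr'
    exact h hr'

/-- The Hilbert function of the contraction. -/
theorem hilb_res (P : Ideal R) (t : ℕ) :
    Drop.hilb (verGr 𝒜 m) (res 𝒜 m P) t = Drop.hilb 𝒜 P (m * t) := by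
  unfold Drop.hilb
  -- both are ranges of maps from `R_{m t}` with the same kernel
  let f : verGr 𝒜 m t →ₗ[k] (ver 𝒜 m ⧸ res 𝒜 m P) :=
    (Ideal.Quotient.mkₐ k (res 𝒜 m P)).toLinearMap.domRestrict (verGr 𝒜 m t)
  let g : verGr 𝒜 m t →ₗ[k] (R ⧸ P) :=
    ((Ideal.Quotient.mkₐ k P).toLinearMap.comp (ver 𝒜 m).val.toLinearMap).domRestrict
      (verGr 𝒜 m t)
  have hf : LinearMap.range f =
      (verGr 𝒜 m t).map (Ideal.Quotient.mkₐ k (res 𝒜 m P)).toLinearMap :=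
    LinearMap.range_domRestrict _ _
  have hg : LinearMap.range g = (𝒜 (m * t)).map (Ideal.Quotient.mkₐ k P).toLinearMap := by
    rw [LinearMap.range_domRestrict, Submodule.map_comp, map_val_verGr]
  have hker : LinearMap.ker f = LinearMap.ker g := by
    ext x
    rw [LinearMap.mem_ker, LinearMap.mem_ker]
    change Ideal.Quotient.mk _ (x : ver 𝒜 m) = 0 ↔ Ideal.Quotient.mk P ((x : ver 𝒜 m) : R) = 0
    rw [Ideal.Quotient.eq_zero_iff_mem, Ideal.Quotient.eq_zero_iff_mem]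
    exact Iff.rfl
  rw [← hf, ← hg]
  exact (LinearEquiv.finrank_eq
    ((f.quotKerEquivRange.symm.trans (Submodule.quotEquivOfEq _ _ hker)).trans
      g.quotKerEquivRange))

end Vale.Agent.P271.Ver
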