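import Vale.Agent.P271.Ver.Gen
import Vale.Agent.P271.Deg.Quot

/-!
# P271 / Ver / Sub : the Veronese subalgebra and its grading
-/

namespace Vale.Agent.P271.Ver

open DirectSum

section
variable {k R : Type*} [Field k] [CommRing R] [Algebra k R]
  (𝒜 : ℕ → Submodule k R) [GradedAlgebra 𝒜] (m : ℕ)

/-- The Veronese subspace `⨁_t R_{m t}`. -/
def verSub : Submodule k R := ⨆ t, 𝒜 (m * t)

variable {𝒜 m}

omit [GradedAlgebra 𝒜] in
theorem mem_verSub_of_mem {t : ℕ} {r : R} (hr : r ∈ 𝒜 (m * t)) : r ∈ verSub 𝒜 m :=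
  (le_iSup (fun t => 𝒜 (m * t)) t) hr

theorem decompose_eq_zero {r : R} (hr : r ∈ verSub 𝒜 m) {i : ℕ} (hi : ¬ m ∣ i) :
    (decompose 𝒜 r i : R) = 0 := by
  have h : verSub 𝒜 m ≤ LinearMap.ker (GradedAlgebra.proj 𝒜 i) := by
    refine iSup_le (fun t r hr => ?_)
    rw [LinearMap.mem_ker, GradedAlgebra.proj_apply]
    exact decompose_of_mem_ne 𝒜 hr (fun h => hi ⟨t, h.symm⟩)
  exact h hr

theorem mem_verSub_iff {r : R} :
    r ∈ verSub 𝒜 m ↔ ∀ i, ¬ m ∣ i → (decompose 𝒜 r i : R) = 0 := by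
  classical
  refine ⟨fun hr i hi => decompose_eq_zero hr hi, fun h => ?_⟩
  rw [← DirectSum.sum_support_decompose 𝒜 r]
  refine Submodule.sum_mem _ (fun i _ => ?_)
  by_cases hi : m ∣ i
  · obtain ⟨t, rfl⟩ := hi
    exact mem_verSub_of_mem (decompose 𝒜 r (m * t)).2
  · rw [h i hi]
    exact Submodule.zero_mem _

theorem verSub_mul_le : verSub 𝒜 m * verSub 𝒜 m ≤ verSub 𝒜 m := by
  have h1 : ∀ s t, 𝒜 (m * s) * 𝒜 (m * t) ≤ verSub 𝒜 m := by
    intro s t
    refine (mul_le_part 𝒜 _ _).trans ?_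
    rw [← Nat.mul_add]
    exact le_iSup (fun t => 𝒜 (m * t)) (s + t)
  rw [verSub, Submodule.iSup_mul]
  refine iSup_le (fun s => ?_)
  rw [Submodule.mul_iSup]
  exact iSup_le (fun t => h1 s t)

variable (𝒜 m)

/-- The Veronese subalgebra `⨁_t R_{m t}`. -/
def ver : Subalgebra k R :=
  (verSub 𝒜 m).toSubalgebra
    (mem_verSub_of_mem (t := 0) (by rw [mul_zero]; exact SetLike.GradedOne.one_mem))
    (fun _ _ hx hy => verSub_mul_le (Submodule.mul_mem_mul hx hy))

/-- The grading of the Veronese subalgebra. -/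
def verGr (t : ℕ) : Submodule k (ver 𝒜 m) := (𝒜 (m * t)).comap (ver 𝒜 m).val.toLinearMap

variable {𝒜 m}

theorem mem_ver {r : R} : r ∈ ver 𝒜 m ↔ r ∈ verSub 𝒜 m := Iff.rfl

theorem mem_ver_of_mem {t : ℕ} {r : R} (hr : r ∈ 𝒜 (m * t)) : r ∈ ver 𝒜 m :=
  mem_verSub_of_mem hr

theorem mem_verGr {t : ℕ} {r : ver 𝒜 m} : r ∈ verGr 𝒜 m t ↔ (r : R) ∈ 𝒜 (m * t) := Iff.rfl

theorem verGr_gradedMonoid : SetLike.GradedMonoid (verGr 𝒜 m) where
  one_mem := by
    rw [mem_verGr, mul_zero]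
    exact SetLike.GradedOne.one_mem
  mul_mem := by
    intro i j x y hx hy
    rw [mem_verGr] at *
    rw [Nat.mul_add]
    exact SetLike.GradedMul.mul_mem hx hy

theorem verGr_isInternal (hm : 0 < m) : DirectSum.IsInternal (verGr 𝒜 m) := by
  classical
  rw [DirectSum.isInternal_submodule_iff_iSupIndep_and_iSup_eq_top]
  constructor
  · rw [iSupIndep_iff_finsetSum_eq_zero_imp_eq_zero]
    intro s v hv h0 i hi
    have h0' : ∑ j ∈ s, (v j : R) = 0 := by
      have := congrArg (fun x : ver 𝒜 m => (x : R)) h0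
      simpa using this
    have h4 : (decompose 𝒜 (∑ j ∈ s, (v j : R)) (m * i) : R) = v i := by
      rw [decompose_sum, DirectSum.sum_apply, AddSubmonoidClass.coe_finsetSum,
        Finset.sum_eq_single i]
      · exact decompose_of_mem_same _ (hv i hi)
      · intro j hj hji
        refine decompose_of_mem_ne _ (hv j hj) (fun h => hji ?_)
        exact Nat.eq_of_mul_eq_mul_left hm h
      · intro h
        exact absurd hi h
    rw [h0', decompose_zero] at h4
    apply Subtype.ext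
    rw [← h4]
    rfl
  · rw [eq_top_iff]
    rintro ⟨r, hr⟩ -
    -- components
    have hcomp : ∀ i, (decompose 𝒜 r i : R) ∈ ver 𝒜 m := by
      intro i
      by_cases hi : m ∣ i
      · obtain ⟨t, rfl⟩ := hi
        exact mem_ver_of_mem (decompose 𝒜 r (m * t)).2
      · rw [decompose_eq_zero hr hi]
        exact (ver 𝒜 m).zero_mem
    have h : (⟨r, hr⟩ : ver 𝒜 m) =
        ∑ i ∈ (decompose 𝒜 r).support, ⟨(decompose 𝒜 r i : R), hcomp i⟩ := by
      apply Subtype.ext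
      rw [AddSubmonoidClass.coe_finsetSum]
      exact (DirectSum.sum_support_decompose 𝒜 r).symm
    rw [h]
    refine Submodule.sum_mem _ (fun i _ => ?_)
    by_cases hi : m ∣ i
    · obtain ⟨t, rfl⟩ := hi
      exact (le_iSup (verGr 𝒜 m) t) (decompose 𝒜 r (m * t)).2
    · have h0 : (⟨(decompose 𝒜 r i : R), hcomp i⟩ : ver 𝒜 m) = 0 :=
        Subtype.ext (decompose_eq_zero hr hi)
      rw [h0]
      exact Submodule.zero_mem _

/-- The Veronese subalgebra is graded. -/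
@[instance_reducible] noncomputable def verGraded (hm : 0 < m) : GradedAlgebra (verGr 𝒜 m) :=
  { verGr_gradedMonoid (𝒜 := 𝒜) (m := m), (verGr_isInternal hm).chooseDecomposition with }

/-- The part `(R^{(m)})_t` is `R_{m t}`. -/
noncomputable def verGrEquiv (t : ℕ) : verGr 𝒜 m t ≃ₗ[k] 𝒜 (m * t) :=
  LinearEquiv.ofBijective
    (((ver 𝒜 m).val.toLinearMap.domRestrict (verGr 𝒜 m t)).codRestrict (𝒜 (m * t))
      (fun x => x.2))
    ⟨fun x y h => by
        apply Subtype.ext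
        apply Subtype.ext
        exact congrArg (fun z : 𝒜 (m * t) => (z : R)) h,
      fun y => ⟨⟨⟨y, mem_ver_of_mem y.2⟩, y.2⟩, rfl⟩⟩

@[simp] theorem verGrEquiv_apply (t : ℕ) (x : verGr 𝒜 m t) :
    (verGrEquiv t x : R) = ((x : ver 𝒜 m) : R) := rfl

theorem verGr_finite {t : ℕ} [Module.Finite k (𝒜 (m * t))] : Module.Finite k (verGr 𝒜 m t) :=
  Module.Finite.equiv (verGrEquiv t).symm

theorem map_val_verGr (t : ℕ) : (verGr 𝒜 m t).map (ver 𝒜 m).val.toLinearMap = 𝒜 (m * t) := by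
  ext r
  constructor
  · rintro ⟨x, hx, rfl⟩
    exact hx
  · intro hr
    exact ⟨⟨r, mem_ver_of_mem hr⟩, hr, rfl⟩

/-- If `R_{m (t+1)} = (R_m)^(t+1)` for all `t` and `R_0 = k`, the Veronese subalgebra is generated in
degree one. -/
theorem ver_gen (h0 : ∀ r ∈ 𝒜 0, ∃ c : k, r = algebraMap k R c)
    (hpow : ∀ t, 𝒜 (m * (t + 1)) ≤ 𝒜 m ^ (t + 1)) :
    Algebra.adjoin k (verGr 𝒜 m 1 : Set (ver 𝒜 m)) = ⊤ := by
  classical
  have hmain : ∀ t, ∀ r ∈ 𝒜 (m * t), r ∈ (Algebra.adjoin k (𝒜 m : Set R)) := by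
    intro t r hr
    rcases t with _ | t
    · rw [mul_zero] at hr
      obtain ⟨c, rfl⟩ := h0 r hr
      exact Subalgebra.algebraMap_mem _ c
    · have h1 := hpow t hr
      have h2 : 𝒜 m ^ (t + 1) ≤ Subalgebra.toSubmodule (Algebra.adjoin k (𝒜 m : Set R)) := by
        have h3 : 𝒜 m ≤ Subalgebra.toSubmodule (Algebra.adjoin k (𝒜 m : Set R)) :=
          fun x hx => Algebra.subset_adjoin hx
        have h4 : ∀ j, 𝒜 m ^ j ≤ Subalgebra.toSubmodule (Algebra.adjoin k (𝒜 m : Set R)) := by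
          intro j
          induction j with
          | zero =>
            rw [pow_zero, Submodule.one_le]
            exact Subalgebra.one_mem _
          | succ j ih =>
            rw [pow_succ, Submodule.mul_le]
            intro a ha b hb
            exact Subalgebra.mul_mem _ (ih ha) (h3 hb)
        exact h4 _
      exact h2 h1
  have himg : (Algebra.adjoin k (verGr 𝒜 m 1 : Set (ver 𝒜 m))).map (ver 𝒜 m).val =
      Algebra.adjoin k (𝒜 m : Set R) := by
    rw [AlgHom.map_adjoin]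
    congr 1
    ext r
    constructor
    · rintro ⟨x, hx, rfl⟩
      have : (x : R) ∈ 𝒜 (m * 1) := hx
      rwa [mul_one] at this
    · intro hr
      have hr' : r ∈ 𝒜 (m * 1) := by rwa [mul_one]
      exact ⟨⟨r, mem_ver_of_mem hr'⟩, hr', rfl⟩
  rw [eq_top_iff]
  rintro ⟨r, hr⟩ -
  have h5 : r ∈ Algebra.adjoin k (𝒜 m : Set R) := by
    rw [← DirectSum.sum_support_decompose 𝒜 r]
    refine Subalgebra.sum_mem _ (fun i _ => ?_)
    by_cases hi : m ∣ i
    · obtain ⟨t, rfl⟩ := hi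
      exact hmain t _ (decompose 𝒜 r (m * t)).2
    · rw [decompose_eq_zero hr hi]
      exact Subalgebra.zero_mem _
  rw [← himg] at h5
  obtain ⟨y, hy, hyr⟩ := h5
  have : y = ⟨r, hr⟩ := Subtype.ext hyr
  rwa [← this]

/-- `R` is integral over its Veronese subalgebra. -/
theorem isIntegral_ver (hm : 0 < m) (r : R) : IsIntegral (ver 𝒜 m) r := by
  classical
  rw [← DirectSum.sum_support_decompose 𝒜 r]
  refine IsIntegral.sum _ (fun i _ => ?_)
  have h1 : (decompose 𝒜 r i : R) ^ m ∈ 𝒜 (m * i) := by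
    have := SetLike.pow_mem_graded m (decompose 𝒜 r i).2
    rwa [smul_eq_mul] at this
  have h2 : IsIntegral (ver 𝒜 m) ((decompose 𝒜 r i : R) ^ m) := by
    have : (decompose 𝒜 r i : R) ^ m =
        algebraMap (ver 𝒜 m) R ⟨(decompose 𝒜 r i : R) ^ m, mem_ver_of_mem h1⟩ := rfl
    rw [this]
    exact isIntegral_algebraMap
  exact IsIntegral.of_pow hm h2

end

end Vale.Agent.P271.Ver
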